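import Vale.Agent.SqFree.Blocks

namespace Vale.Agent.Results.P042.Lower

/-- Square-difference-free subsets of `[N]` of size `≫ N ^ 0.7568`. -/
theorem result :
    ∃ c : ℝ, 0 < c ∧ ∀ N : ℕ, 1 ≤ N → ∃ A : Finset ℕ, A ⊆ Finset.Icc 1 N ∧
      (∀ a ∈ A, ∀ b ∈ A, ∀ n : ℕ, 1 ≤ n → (a : ℤ) - (b : ℤ) ≠ (n : ℤ) ^ 2) ∧
      c * (N : ℝ) ^ (0.7568 : ℝ) ≤ (A.card : ℝ) := by
  have h := Vale.Agent.SqFree.lower
  have e : (((7568 : ℕ) : ℝ) / (10000 : ℕ)) = (0.7568 : ℝ) := by norm_num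
  rw [e] at h
  exact h

end Vale.Agent.Results.P042.Lower
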